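import Vale.Agent.P178.Normal

/-!
The Gersten complex in degree `n = dim A - 1` of a regular local ring `A` is exact at its last
term, the free group on the primes of height `dim A - 1`, when `A` is complete, or more generally
when the quotients by these primes have finite normalisation.
-/

namespace Vale.Agent.Results.P178.GerstenLastTerm

open Vale.Agent.P178

universe u

theorem result (A : Type u) [CommRing A] [IsRegularLocalRing A] (k : ℕ)
    (hd : ringKrullDim A = (k + 2 : ℕ))
    (h : IsAdicComplete (IsLocalRing.maximalIdeal A) A ∨
      ∀ P : CodimPoints A (k + 1), Module.Finite A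
        (integralClosure (A ⧸ P.1.asIdeal) (FractionRing (A ⧸ P.1.asIdeal)))) :
    rationallyTrivial A k = ⊤ :=
  exact_at_last_term A k hd h

end Vale.Agent.Results.P178.GerstenLastTerm
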